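import Mathlib
import Vale.Agent.Lib.P243.Defs
import Vale.Agent.Lib.P243.R3.Defs

/-!
# P243, `r_3 > 1/3`, module M4 (part a): supporting functionals and linear algebra in `E3`
-/

namespace Vale.Agent.Lib.P243.R3

open MeasureTheory Set
open scoped Pointwise

/-- A supporting functional at a frontier point of a convex body. -/
theorem M4_exists_support {K : Set E3} (hK : Body K) {x : E3} (hx : x ∈ frontier K) :
    ∃ f : E3 →L[ℝ] ℝ, f ≠ 0 ∧ ∀ y ∈ K, f y ≤ f x := by
  have hxi : x ∉ interior K := hx.2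
  obtain ⟨f, hf⟩ := geometric_hahn_banach_open_point hK.conv.interior isOpen_interior hxi
  refine ⟨f, ?_, ?_⟩
  · rintro rfl
    obtain ⟨a, ha⟩ := hK.int
    have := hf a ha
    simp at this
  · intro y hy
    have hcl : y ∈ closure (interior K) := by
      rw [hK.conv.closure_interior_eq_closure_of_nonempty_interior hK.int]
      exact subset_closure hy
    have hclosed : IsClosed {a : E3 | f a ≤ f x} := isClosed_le f.continuous continuous_const
    exact (closure_minimal (fun a ha => (hf a ha).le) hclosed) hcl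

/-- A point of the interior is not a maximum point of a nonzero functional. -/
theorem M4_not_interior {K : Set E3} {f : E3 →L[ℝ] ℝ} (hf : f ≠ 0) {c : E3}
    (hc : c ∈ interior K) (hmax : ∀ y ∈ K, f y ≤ f c) : False := by
  obtain ⟨v, hv⟩ : ∃ v, 0 < f v := by
    by_contra hcon
    push Not at hcon
    apply hf
    ext w
    have h1 := hcon w
    have h2 := hcon (-w)
    simp only [map_neg] at h2
    show f w = 0
    linarith
  have hcont : Continuous (fun t : ℝ => c + t • v) := by fun_prop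
  have hev : ∀ᶠ t in nhds (0 : ℝ), c + t • v ∈ interior K := by
    apply (hcont.tendsto 0).eventually
    apply isOpen_interior.mem_nhds
    simpa using hc
  have hev2 : ∀ᶠ t in nhdsWithin (0 : ℝ) (Ioi 0), c + t • v ∈ interior K :=
    hev.filter_mono nhdsWithin_le_nhds
  obtain ⟨t, ht, htpos⟩ := (hev2.and self_mem_nhdsWithin).exists
  have h := hmax _ (interior_subset ht)
  simp only [map_add, map_smul, smul_eq_mul] at h
  have : 0 < t * f v := mul_pos htpos hv
  linarith

/-- A maximum point of a nonzero functional on a body lies on the frontier. -/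
theorem M4_mem_frontier {K : Set E3} {f : E3 →L[ℝ] ℝ} (hf : f ≠ 0) {x : E3}
    (hx : x ∈ K) (hmax : ∀ y ∈ K, f y ≤ f x) : x ∈ frontier K :=
  ⟨subset_closure hx, fun h => M4_not_interior hf h hmax⟩

/-- Strict inequality at interior points. -/
theorem M4_interior_lt {K : Set E3} {f : E3 →L[ℝ] ℝ} (hf : f ≠ 0) {c : ℝ}
    (hle : ∀ y ∈ K, f y ≤ c) {y : E3} (hy : y ∈ interior K) : f y < c := by
  by_contra hcon
  push Not at hcon
  exact M4_not_interior hf hy (fun z hz => (hle z hz).trans hcon)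

theorem M4_frontier_subset {K : Set E3} (hK : Body K) : frontier K ⊆ K :=
  hK.compact.isClosed.frontier_subset

/-- If a segment lies in the frontier, some supporting plane contains both end points. -/
theorem M4_sup2 {K : Set E3} (hK : Body K) {a x : E3} (h : segment ℝ a x ⊆ frontier K) :
    ∃ f : E3 →L[ℝ] ℝ, f ≠ 0 ∧ (∀ y ∈ K, f y ≤ f x) ∧ f a = f x := by
  have hm : midpoint ℝ a x ∈ frontier K := h (midpoint_mem_segment a x)
  obtain ⟨f, hf, hmax⟩ := M4_exists_support hK hm
  have ha : a ∈ K := M4_frontier_subset hK (h (left_mem_segment ℝ a x))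
  have hx : x ∈ K := M4_frontier_subset hK (h (right_mem_segment ℝ a x))
  have e : f (midpoint ℝ a x) = (f a + f x) / 2 := by
    rw [midpoint_eq_smul_add]
    simp only [map_smul, map_add, smul_eq_mul, invOf_eq_inv]
    ring
  have h1 := hmax a ha
  have h2 := hmax x hx
  rw [e] at h1 h2
  refine ⟨f, hf, ?_, by linarith⟩
  intro y hy
  have h3 := hmax y hy
  rw [e] at h3
  linarith

/-- Two steps: a supporting plane through `a1`, `a2` and `x`. -/
theorem M4_two_step {K : Set E3} (hK : Body K) {a1 a2 x : E3}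
    (h1 : segment ℝ a1 x ⊆ frontier K)
    (h2 : segment ℝ a2 (midpoint ℝ a1 x) ⊆ frontier K) :
    ∃ f : E3 →L[ℝ] ℝ, f ≠ 0 ∧ (∀ y ∈ K, f y ≤ f x) ∧ f a1 = f x ∧ f a2 = f x := by
  obtain ⟨f, hf, hmax, h2e⟩ := M4_sup2 hK h2
  have ha : a1 ∈ K := M4_frontier_subset hK (h1 (left_mem_segment ℝ a1 x))
  have hx : x ∈ K := M4_frontier_subset hK (h1 (right_mem_segment ℝ a1 x))
  have e : f (midpoint ℝ a1 x) = (f a1 + f x) / 2 := by
    rw [midpoint_eq_smul_add]
    simp only [map_smul, map_add, smul_eq_mul, invOf_eq_inv]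
    ring
  have h3 := hmax a1 ha
  have h4 := hmax x hx
  rw [e] at h3 h4 h2e
  refine ⟨f, hf, ?_, by linarith, by linarith⟩
  intro y hy
  have h5 := hmax y hy
  rw [e] at h5
  linarith

/-- A functional vanishing on two independent vectors of the kernel of a nonzero functional
vanishes on that kernel. -/
theorem M4_ker_le {f g : E3 →L[ℝ] ℝ} (hf : f ≠ 0) {v1 v2 : E3}
    (hli : LinearIndependent ℝ ![v1, v2]) (hf1 : f v1 = 0) (hf2 : f v2 = 0)
    (hg1 : g v1 = 0) (hg2 : g v2 = 0) {w : E3} (hw : f w = 0) : g w = 0 := by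
  have hf' : (f : E3 →ₗ[ℝ] ℝ) ≠ 0 := by
    intro h
    apply hf
    ext z
    have := congrArg (fun φ : E3 →ₗ[ℝ] ℝ => φ z) h
    simpa using this
  have hk : Module.finrank ℝ (LinearMap.ker (f : E3 →ₗ[ℝ] ℝ)) + 1 = Module.finrank ℝ E3 :=
    Module.Dual.finrank_ker_add_one_of_ne_zero (f := (f : E3 →ₗ[ℝ] ℝ)) hf'
  have h3 : Module.finrank ℝ E3 = 3 := finrank_euclideanSpace_fin
  have hsp : Module.finrank ℝ (Submodule.span ℝ (Set.range ![v1, v2])) = 2 := by
    rw [finrank_span_eq_card hli]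
    simp
  have hle : Submodule.span ℝ (Set.range ![v1, v2]) ≤ LinearMap.ker (f : E3 →ₗ[ℝ] ℝ) := by
    rw [Submodule.span_le]
    rintro _ ⟨i, rfl⟩
    fin_cases i
    · simpa using hf1
    · simpa using hf2
  have heq : Submodule.span ℝ (Set.range ![v1, v2]) = LinearMap.ker (f : E3 →ₗ[ℝ] ℝ) :=
    Submodule.eq_of_le_of_finrank_eq hle (by omega)
  have hleg : Submodule.span ℝ (Set.range ![v1, v2]) ≤ LinearMap.ker (g : E3 →ₗ[ℝ] ℝ) := by
    rw [Submodule.span_le]
    rintro _ ⟨i, rfl⟩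
    fin_cases i
    · simpa using hg1
    · simpa using hg2
  have hwk : w ∈ LinearMap.ker (f : E3 →ₗ[ℝ] ℝ) := by simpa using hw
  rw [← heq] at hwk
  have := hleg hwk
  simpa using this

/-- Dependence on a nonzero vector. -/
theorem M4_dep {v w : E3} (hv : v ≠ 0) (h : ¬ LinearIndependent ℝ ![v, w]) :
    ∃ t : ℝ, w = t • v := by
  rw [LinearIndependent.pair_iff' hv] at h
  push Not at h
  obtain ⟨a, ha⟩ := h
  exact ⟨a, ha.symm⟩

theorem M4_diam {S : Set E3} (hS : IsCompact S) (hne : S.Nonempty) :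
    ∃ α ∈ S, ∃ β ∈ S, ∀ z ∈ S, dist z α ≤ dist α β ∧ dist z β ≤ dist α β := by
  obtain ⟨p, hmem, hmax⟩ := (hS.prod hS).exists_isMaxOn (hne.prod hne)
    (f := fun p : E3 × E3 => dist p.1 p.2) continuous_dist.continuousOn
  refine ⟨p.1, hmem.1, p.2, hmem.2, ?_⟩
  intro z hz
  have h1 := hmax (show (z, p.1) ∈ S ×ˢ S from ⟨hz, hmem.1⟩)
  have h2 := hmax (show (z, p.2) ∈ S ×ˢ S from ⟨hz, hmem.2⟩)
  exact ⟨h1, h2⟩

theorem M4_par {α β z : E3} {t : ℝ} (ht : z - α = t • (β - α)) (hv : β - α ≠ 0)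
    (h1 : dist z α ≤ dist α β) (h2 : dist z β ≤ dist α β) : z ∈ segment ℝ α β := by
  have hpos : 0 < ‖β - α‖ := norm_pos_iff.mpr hv
  have e0 : dist α β = ‖β - α‖ := by rw [dist_comm, dist_eq_norm]
  have e1 : dist z α = |t| * ‖β - α‖ := by
    rw [dist_eq_norm, ht, norm_smul, Real.norm_eq_abs]
  have hz : z = α + t • (β - α) := by rw [← ht]; abel
  have e2 : dist z β = |t - 1| * ‖β - α‖ := by
    have : z - β = (t - 1) • (β - α) := by
      rw [hz, sub_smul, one_smul]; abel
    rw [dist_eq_norm, this, norm_smul, Real.norm_eq_abs]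
  rw [e0, e1] at h1
  rw [e0, e2] at h2
  have ht1 : |t| ≤ 1 := by
    by_contra hcon
    push Not at hcon
    nlinarith
  have ht2 : |t - 1| ≤ 1 := by
    by_contra hcon
    push Not at hcon
    nlinarith
  have ht0 : 0 ≤ t := by
    have := (abs_le.mp ht2).1
    linarith
  have ht1' : t ≤ 1 := (abs_le.mp ht1).2
  refine ⟨1 - t, t, by linarith, ht0, by ring, ?_⟩
  rw [hz, smul_sub, sub_smul, one_smul]; abel

/-- A compact set all of whose triples are collinear lies in a segment with end points in it. -/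
theorem M4_collinear_segment {S : Set E3} (hS : IsCompact S) (hne : S.Nonempty)
    (hcol : ∀ x ∈ S, ∀ y ∈ S, ∀ z ∈ S, ¬ LinearIndependent ℝ ![y - x, z - x]) :
    ∃ α ∈ S, ∃ β ∈ S, S ⊆ segment ℝ α β := by
  obtain ⟨α, hα, β, hβ, hmax⟩ := M4_diam hS hne
  refine ⟨α, hα, β, hβ, ?_⟩
  intro z hz
  obtain ⟨h1, h2⟩ := hmax z hz
  by_cases hab : β - α = 0
  · have hab' : β = α := sub_eq_zero.mp hab
    rw [hab', dist_self] at h1
    have : z = α := dist_le_zero.mp h1
    rw [this]
    exact left_mem_segment ℝ α β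
  · obtain ⟨t, ht⟩ := M4_dep hab (hcol α hα β hβ z hz)
    exact M4_par ht hab h1 h2

end Vale.Agent.Lib.P243.R3
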