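import Mathlib
import Vale.Agent.Lib.P243.Defs
import Vale.Agent.Lib.P243.R3.Defs
import Vale.Agent.Lib.P243.R3.helper55.M4a

/-!
# P243, `r_3 > 1/3`, module M4 (part b): facets and the case of three facet planes
-/

namespace Vale.Agent.Lib.P243.R3

open MeasureTheory Set
open scoped Pointwise

/-- `(f, c)` is a supporting plane of `K` whose face contains three non-collinear points. -/
def M4_Facet (K : Set E3) (f : E3 →L[ℝ] ℝ) (c : ℝ) : Prop :=
  f ≠ 0 ∧ (∀ y ∈ K, f y ≤ c) ∧ ∃ x1 ∈ K, ∃ x2 ∈ K, ∃ x3 ∈ K,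
    f x1 = c ∧ f x2 = c ∧ f x3 = c ∧ LinearIndependent ℝ ![x2 - x1, x3 - x1]

/-- The star property of a pair of points. -/
def M4_Star (K : Set E3) (p q : E3) : Prop :=
  ∀ x ∈ frontier K, segment ℝ p x ⊆ frontier K ∨ segment ℝ q x ⊆ frontier K

theorem M4_facet_aux {K : Set E3} (hK : Body K) {f : E3 →L[ℝ] ℝ} {c : ℝ}
    {x1 x2 x3 : E3} (h1 : x1 ∈ K) (h2 : x2 ∈ K) (h3 : x3 ∈ K)
    (e1 : f x1 = c) (e2 : f x2 = c) (e3 : f x3 = c)
    (hli : LinearIndependent ℝ ![x2 - x1, x3 - x1]) {a : E3}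
    (ha : segment ℝ a ((1 / 3 : ℝ) • x1 + (1 / 3 : ℝ) • x2 + (1 / 3 : ℝ) • x3) ⊆ frontier K) :
    f a = c := by
  obtain ⟨g, hg, hmax, hga⟩ := M4_sup2 hK ha
  have ex : g ((1 / 3 : ℝ) • x1 + (1 / 3 : ℝ) • x2 + (1 / 3 : ℝ) • x3)
      = (g x1 + g x2 + g x3) / 3 := by
    simp only [map_add, map_smul, smul_eq_mul]
    ring
  rw [ex] at hmax hga
  have m1 := hmax x1 h1
  have m2 := hmax x2 h2
  have m3 := hmax x3 h3
  have g1 : g (x2 - x1) = 0 := by rw [map_sub]; linarith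
  have g2 : g (x3 - x1) = 0 := by rw [map_sub]; linarith
  have g3 : g (a - x1) = 0 := by rw [map_sub]; linarith
  have f1 : f (x2 - x1) = 0 := by rw [map_sub]; linarith
  have f2 : f (x3 - x1) = 0 := by rw [map_sub]; linarith
  have := M4_ker_le hg hli g1 g2 f1 f2 g3
  rw [map_sub] at this
  linarith

/-- Every facet contains an end point of a pair with the star property. -/
theorem M4_facet_hits {K : Set E3} (hK : Body K) {f : E3 →L[ℝ] ℝ} {c : ℝ}
    (hF : M4_Facet K f c) {p q : E3} (hstar : M4_Star K p q) : f p = c ∨ f q = c := by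
  obtain ⟨hf, hle, x1, h1, x2, h2, x3, h3, e1, e2, e3, hli⟩ := hF
  have hm : (1 / 2 : ℝ) • x1 + (1 / 2 : ℝ) • x2 ∈ K :=
    hK.conv h1 h2 (by norm_num) (by norm_num) (by norm_num)
  have hx : (2 / 3 : ℝ) • ((1 / 2 : ℝ) • x1 + (1 / 2 : ℝ) • x2) + (1 / 3 : ℝ) • x3 ∈ K :=
    hK.conv hm h3 (by norm_num) (by norm_num) (by norm_num)
  have hx' : (2 / 3 : ℝ) • ((1 / 2 : ℝ) • x1 + (1 / 2 : ℝ) • x2) + (1 / 3 : ℝ) • x3
      = (1 / 3 : ℝ) • x1 + (1 / 3 : ℝ) • x2 + (1 / 3 : ℝ) • x3 := by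
    rw [smul_add, smul_smul, smul_smul]
    norm_num
  rw [hx'] at hx
  have hfx : f ((1 / 3 : ℝ) • x1 + (1 / 3 : ℝ) • x2 + (1 / 3 : ℝ) • x3) = c := by
    simp only [map_add, map_smul, smul_eq_mul, e1, e2, e3]
    ring
  have hfr : (1 / 3 : ℝ) • x1 + (1 / 3 : ℝ) • x2 + (1 / 3 : ℝ) • x3 ∈ frontier K :=
    M4_mem_frontier hf hx (fun y hy => by rw [hfx]; exact hle y hy)
  rcases hstar _ hfr with h | h
  · exact Or.inl (M4_facet_aux hK h1 h2 h3 e1 e2 e3 hli h)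
  · exact Or.inr (M4_facet_aux hK h1 h2 h3 e1 e2 e3 hli h)

/-- The part of `K` in two distinct planes lies in a segment. -/
theorem M4_two_planes_segment {K : Set E3} (hK : Body K) {f g : E3 →L[ℝ] ℝ} {c d : ℝ}
    (hf : f ≠ 0) (hg : g ≠ 0) (hne : {y : E3 | f y = c} ≠ {y : E3 | g y = d}) :
    ∃ α ∈ K, ∃ β ∈ K, ∀ z ∈ K, f z = c → g z = d → z ∈ segment ℝ α β := by
  obtain ⟨x0, hx0⟩ : K.Nonempty := hK.int.mono interior_subset
  by_cases hS : (K ∩ {y : E3 | f y = c ∧ g y = d}).Nonempty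
  · have hcl : IsClosed {y : E3 | f y = c ∧ g y = d} :=
      (isClosed_eq f.continuous continuous_const).inter
        (isClosed_eq g.continuous continuous_const)
    have hcomp : IsCompact (K ∩ {y : E3 | f y = c ∧ g y = d}) := hK.compact.inter_right hcl
    obtain ⟨α, hα, β, hβ, hsub⟩ := M4_collinear_segment hcomp hS (by
      intro x hx y hy z hz hli
      apply hne
      ext w
      have fy : f (y - x) = 0 := by rw [map_sub, hy.2.1, hx.2.1]; ring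
      have fz : f (z - x) = 0 := by rw [map_sub, hz.2.1, hx.2.1]; ring
      have gy : g (y - x) = 0 := by rw [map_sub, hy.2.2, hx.2.2]; ring
      have gz : g (z - x) = 0 := by rw [map_sub, hz.2.2, hx.2.2]; ring
      constructor
      · intro hw
        have hw' : f w = c := hw
        have h0 : f (w - x) = 0 := by rw [map_sub, hw', hx.2.1]; ring
        have := M4_ker_le hf hli fy fz gy gz h0
        rw [map_sub, hx.2.2] at this
        show g w = d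
        linarith
      · intro hw
        have hw' : g w = d := hw
        have h0 : g (w - x) = 0 := by rw [map_sub, hw', hx.2.2]; ring
        have := M4_ker_le hg hli gy gz fy fz h0
        rw [map_sub, hx.2.1] at this
        show f w = c
        linarith)
    exact ⟨α, hα.1, β, hβ.1, fun z hz h1 h2 => hsub ⟨hz, h1, h2⟩⟩
  · refine ⟨x0, hx0, x0, hx0, fun z hz h1 h2 => ?_⟩
    exact absurd ⟨z, hz, h1, h2⟩ hS

/-- Case of three facets in pairwise distinct planes. -/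
theorem M4_case_three {K : Set E3} (hK : Body K) (E : E3 → E3 → Prop)
    (hE : ∀ p q, E p q → M4_Star K p q ∧ p ∈ K ∧ q ∈ K)
    {f1 f2 f3 : E3 →L[ℝ] ℝ} {c1 c2 c3 : ℝ}
    (h1 : M4_Facet K f1 c1) (h2 : M4_Facet K f2 c2) (h3 : M4_Facet K f3 c3)
    (h12 : {y : E3 | f1 y = c1} ≠ {y : E3 | f2 y = c2})
    (h13 : {y : E3 | f1 y = c1} ≠ {y : E3 | f3 y = c3})
    (h23 : {y : E3 | f2 y = c2} ≠ {y : E3 | f3 y = c3}) :
    ∃ α β : Fin 3 → E3, (∀ j, α j ∈ K ∧ β j ∈ K) ∧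
      ∀ p q, E p q → (p ∈ ⋃ j, segment ℝ (α j) (β j)) ∨ (q ∈ ⋃ j, segment ℝ (α j) (β j)) := by
  obtain ⟨a12, ha12, b12, hb12, s12⟩ := M4_two_planes_segment hK h1.1 h2.1 h12
  obtain ⟨a13, ha13, b13, hb13, s13⟩ := M4_two_planes_segment hK h1.1 h3.1 h13
  obtain ⟨a23, ha23, b23, hb23, s23⟩ := M4_two_planes_segment hK h2.1 h3.1 h23
  refine ⟨![a12, a13, a23], ![b12, b13, b23], ?_, ?_⟩
  · intro j
    fin_cases j
    · exact ⟨ha12, hb12⟩
    · exact ⟨ha13, hb13⟩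
    · exact ⟨ha23, hb23⟩
  · intro p q hpq
    obtain ⟨hstar, hp, hq⟩ := hE p q hpq
    have k12 : ∀ z ∈ K, f1 z = c1 → f2 z = c2 →
        z ∈ ⋃ j, segment ℝ ((![a12, a13, a23] : Fin 3 → E3) j) ((![b12, b13, b23] : Fin 3 → E3) j) :=
      fun z hz e1 e2 => mem_iUnion.2 ⟨0, s12 z hz e1 e2⟩
    have k13 : ∀ z ∈ K, f1 z = c1 → f3 z = c3 →
        z ∈ ⋃ j, segment ℝ ((![a12, a13, a23] : Fin 3 → E3) j) ((![b12, b13, b23] : Fin 3 → E3) j) :=
      fun z hz e1 e2 => mem_iUnion.2 ⟨1, s13 z hz e1 e2⟩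
    have k23 : ∀ z ∈ K, f2 z = c2 → f3 z = c3 →
        z ∈ ⋃ j, segment ℝ ((![a12, a13, a23] : Fin 3 → E3) j) ((![b12, b13, b23] : Fin 3 → E3) j) :=
      fun z hz e1 e2 => mem_iUnion.2 ⟨2, s23 z hz e1 e2⟩
    rcases M4_facet_hits hK h1 hstar with u1 | u1 <;>
    rcases M4_facet_hits hK h2 hstar with u2 | u2 <;>
    rcases M4_facet_hits hK h3 hstar with u3 | u3
    · exact Or.inl (k12 p hp u1 u2)
    · exact Or.inl (k12 p hp u1 u2)
    · exact Or.inl (k13 p hp u1 u3)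
    · exact Or.inr (k23 q hq u2 u3)
    · exact Or.inl (k23 p hp u2 u3)
    · exact Or.inr (k13 q hq u1 u3)
    · exact Or.inr (k12 q hq u1 u2)
    · exact Or.inr (k12 q hq u1 u2)

end Vale.Agent.Lib.P243.R3
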