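import Mathlib
import Vale.Agent.Lib.P243.Defs
import Vale.Agent.Lib.P243.R3.Defs
import Vale.Agent.Lib.P243.R3.helper55.M4a
import Vale.Agent.Lib.P243.R3.helper55.M4b

/-!
# P243, `r_3 > 1/3`, module M4 (part c): the hitting set
-/

namespace Vale.Agent.Lib.P243.R3

open MeasureTheory Set
open scoped Pointwise

/-- A ray from an interior point leaves the body through a frontier point. -/
theorem M4_exit {K : Set E3} (hK : Body K) {c d : E3} (hc : c ∈ interior K) (hd : d ≠ 0) :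
    ∃ t : ℝ, c + t • d ∈ frontier K := by
  have hcont : Continuous (fun t : ℝ => c + t • d) := by fun_prop
  set T : Set ℝ := Ici 0 ∩ (fun t : ℝ => c + t • d) ⁻¹' K with hT
  have hclosed : IsClosed T := isClosed_Ici.inter (hK.compact.isClosed.preimage hcont)
  obtain ⟨R, hR⟩ := hK.compact.isBounded.subset_closedBall c
  have hdpos : 0 < ‖d‖ := norm_pos_iff.mpr hd
  have hsub : T ⊆ Icc 0 (R / ‖d‖) := by
    intro t ht
    refine ⟨ht.1, ?_⟩
    have h1 : c + t • d ∈ Metric.closedBall c R := hR ht.2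
    rw [Metric.mem_closedBall, dist_eq_norm] at h1
    have h2 : c + t • d - c = t • d := by abel
    rw [h2, norm_smul, Real.norm_eq_abs, abs_of_nonneg ht.1] at h1
    rw [le_div_iff₀ hdpos]
    exact h1
  have hcomp : IsCompact T := isCompact_Icc.of_isClosed_subset hclosed hsub
  have hne : T.Nonempty := ⟨0, by
    refine ⟨le_refl (0 : ℝ), ?_⟩
    show c + (0 : ℝ) • d ∈ K
    rw [zero_smul, add_zero]
    exact interior_subset hc⟩
  have hmem : sSup T ∈ T := hcomp.sSup_mem hne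
  refine ⟨sSup T, subset_closure hmem.2, ?_⟩
  intro hint
  have hev : ∀ᶠ s in nhds (sSup T), c + s • d ∈ interior K :=
    (hcont.tendsto (sSup T)).eventually (isOpen_interior.mem_nhds hint)
  have hev2 : ∀ᶠ s in nhdsWithin (sSup T) (Ioi (sSup T)), c + s • d ∈ interior K :=
    hev.filter_mono nhdsWithin_le_nhds
  obtain ⟨s, hs, hsgt⟩ := (hev2.and self_mem_nhdsWithin).exists
  have hsK : c + s • d ∈ K := interior_subset hs
  have hsT : s ∈ T := ⟨le_trans hmem.1 (le_of_lt hsgt), hsK⟩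
  have := le_csSup hcomp.bddAbove hsT
  exact absurd hsgt (not_lt.mpr this)

/-- Two functionals on `E3` have a common nonzero kernel vector. -/
theorem M4_exists_dir (f1 f2 : E3 →L[ℝ] ℝ) : ∃ d : E3, d ≠ 0 ∧ f1 d = 0 ∧ f2 d = 0 := by
  have hlt : Module.finrank ℝ (ℝ × ℝ) < Module.finrank ℝ E3 := by
    rw [finrank_euclideanSpace_fin, Module.finrank_prod, Module.finrank_self]
    norm_num
  have hk := LinearMap.ker_ne_bot_of_finrank_lt
    (f := (f1 : E3 →ₗ[ℝ] ℝ).prod (f2 : E3 →ₗ[ℝ] ℝ)) hlt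
  obtain ⟨d, hd, hd0⟩ := Submodule.exists_mem_ne_zero_of_ne_bot hk
  have h0 := LinearMap.mem_ker.mp hd
  refine ⟨d, hd0, ?_, ?_⟩
  · have := congrArg Prod.fst h0
    simpa using this
  · have := congrArg Prod.snd h0
    simpa using this

/-- A plane (or a smaller affine set) spanned by two directions is a null set. -/
theorem M4_plane_null (a u d : E3) :
    volume {y : E3 | ∃ s r : ℝ, y = a + s • u + r • d} = 0 := by
  have hWtop : Submodule.span ℝ (Set.range ![u, d]) ≠ ⊤ := by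
    intro h
    have h1 : Module.finrank ℝ (Submodule.span ℝ (Set.range ![u, d])) ≤ 2 := by
      have := finrank_range_le_card (R := ℝ) ![u, d]
      simpa [Set.finrank] using this
    rw [h, finrank_top, finrank_euclideanSpace_fin] at h1
    omega
  have hnull : volume ((Submodule.span ℝ (Set.range ![u, d]) : Submodule ℝ E3) : Set E3) = 0 :=
    Measure.addHaar_submodule volume _ hWtop
  have hsub : {y : E3 | ∃ s r : ℝ, y = a + s • u + r • d}
      ⊆ a +ᵥ ((Submodule.span ℝ (Set.range ![u, d]) : Submodule ℝ E3) : Set E3) := by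
    rintro y ⟨s, r, rfl⟩
    refine Set.mem_vadd_set.2 ⟨s • u + r • d, ?_, ?_⟩
    · exact Submodule.add_mem _ (Submodule.smul_mem _ s (Submodule.subset_span ⟨0, rfl⟩))
        (Submodule.smul_mem _ r (Submodule.subset_span ⟨1, rfl⟩))
    · rw [vadd_eq_add, add_assoc]
  have h2 : volume (a +ᵥ ((Submodule.span ℝ (Set.range ![u, d]) : Submodule ℝ E3) : Set E3))
      = 0 := by
    rw [measure_vadd]
    exact hnull
  exact measure_mono_null hsub h2

/-- The frontier of a body is not covered by two planes missing the interior and four lines. -/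
theorem M4_lemma_Z {K : Set E3} (hK : Body K) (f1 f2 : E3 →L[ℝ] ℝ) (c1 c2 : ℝ)
    (hint : ∀ y ∈ interior K, f1 y ≠ c1 ∧ f2 y ≠ c2) (a b : Fin 4 → E3)
    (hcov : ∀ x ∈ frontier K, f1 x = c1 ∨ f2 x = c2 ∨
      ∃ j, ∃ t : ℝ, x = a j + t • (b j - a j)) : False := by
  obtain ⟨d, hd0, hd1, hd2⟩ := M4_exists_dir f1 f2
  have hsub : interior K ⊆ ⋃ j, {y : E3 | ∃ s r : ℝ, y = a j + s • (b j - a j) + r • d} := by
    intro c hc
    obtain ⟨t, ht⟩ := M4_exit hK hc hd0
    have e1 : f1 (c + t • d) = f1 c := by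
      rw [map_add, map_smul, hd1, smul_zero, add_zero]
    have e2 : f2 (c + t • d) = f2 c := by
      rw [map_add, map_smul, hd2, smul_zero, add_zero]
    rcases hcov _ ht with h | h | ⟨j, s, hs⟩
    · rw [e1] at h
      exact absurd h (hint c hc).1
    · rw [e2] at h
      exact absurd h (hint c hc).2
    · refine mem_iUnion.2 ⟨j, s, -t, ?_⟩
      rw [← hs, neg_smul]
      abel
  have hnull : volume (⋃ j, {y : E3 | ∃ s r : ℝ, y = a j + s • (b j - a j) + r • d}) = 0 :=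
    measure_iUnion_null (fun j => M4_plane_null (a j) (b j - a j) d)
  have hpos : 0 < volume (interior K) := isOpen_interior.measure_pos volume hK.int
  have := measure_mono_null hsub hnull
  rw [this] at hpos
  exact lt_irrefl _ hpos

/-- A frontier point reached in two steps lies in a facet plane or on the line `a1 a2`. -/
theorem M4_front_cases {K : Set E3} (hK : Body K) {a1 a2 x : E3} (hne : a1 ≠ a2)
    (h1 : segment ℝ a1 x ⊆ frontier K)
    (h2 : segment ℝ a2 (midpoint ℝ a1 x) ⊆ frontier K) :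
    (∃ f c, M4_Facet K f c ∧ f x = c) ∨ ∃ t : ℝ, x = a1 + t • (a2 - a1) := by
  obtain ⟨f, hf, hmax, e1, e2⟩ := M4_two_step hK h1 h2
  have ha1 : a1 ∈ K := M4_frontier_subset hK (h1 (left_mem_segment ℝ a1 x))
  have hx : x ∈ K := M4_frontier_subset hK (h1 (right_mem_segment ℝ a1 x))
  have ha2 : a2 ∈ K := M4_frontier_subset hK (h2 (left_mem_segment ℝ a2 _))
  by_cases hli : LinearIndependent ℝ ![a2 - a1, x - a1]
  · exact Or.inl ⟨f, f x, ⟨hf, hmax, a1, ha1, a2, ha2, x, hx, e1, e2, rfl, hli⟩, rfl⟩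
  · obtain ⟨t, ht⟩ := M4_dep (sub_ne_zero.mpr (Ne.symm hne)) hli
    refine Or.inr ⟨t, ?_⟩
    rw [← ht]
    abel

/-- If no three facets lie in pairwise distinct planes, two planes contain all facets. -/
theorem M4_two_cover {K : Set E3}
    (hno3 : ∀ (f1 f2 f3 : E3 →L[ℝ] ℝ) (c1 c2 c3 : ℝ), M4_Facet K f1 c1 → M4_Facet K f2 c2 →
      M4_Facet K f3 c3 → {y : E3 | f1 y = c1} = {y : E3 | f2 y = c2} ∨
        {y : E3 | f1 y = c1} = {y : E3 | f3 y = c3} ∨
        {y : E3 | f2 y = c2} = {y : E3 | f3 y = c3}) :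
    ∃ (f1 f2 : E3 →L[ℝ] ℝ) (c1 c2 : ℝ), (∀ y ∈ interior K, f1 y ≠ c1 ∧ f2 y ≠ c2) ∧
      ∀ f c, M4_Facet K f c → ∀ x, f x = c → f1 x = c1 ∨ f2 x = c2 := by
  by_cases h : ∃ f c, M4_Facet K f c
  · obtain ⟨fa, ca, hFa⟩ := h
    by_cases h2 : ∃ fb cb, M4_Facet K fb cb ∧ {y : E3 | fa y = ca} ≠ {y : E3 | fb y = cb}
    · obtain ⟨fb, cb, hFb, hne⟩ := h2
      refine ⟨fa, fb, ca, cb, ?_, ?_⟩
      · intro y hy
        exact ⟨(M4_interior_lt hFa.1 hFa.2.1 hy).ne, (M4_interior_lt hFb.1 hFb.2.1 hy).ne⟩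
      · intro f c hF x hx
        rcases hno3 fa fb f ca cb c hFa hFb hF with e | e | e
        · exact absurd e hne
        · have : x ∈ {y : E3 | fa y = ca} := by rw [e]; exact hx
          exact Or.inl this
        · have : x ∈ {y : E3 | fb y = cb} := by rw [e]; exact hx
          exact Or.inr this
    · push Not at h2
      refine ⟨fa, fa, ca, ca, ?_, ?_⟩
      · intro y hy
        exact ⟨(M4_interior_lt hFa.1 hFa.2.1 hy).ne, (M4_interior_lt hFa.1 hFa.2.1 hy).ne⟩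
      · intro f c hF x hx
        have e := h2 f c hF
        have : x ∈ {y : E3 | fa y = ca} := by rw [e]; exact hx
        exact Or.inl this
  · refine ⟨0, 0, 1, 1, ?_, ?_⟩
    · intro y _
      constructor <;> · show (0 : ℝ) ≠ 1; norm_num
    · intro f c hF
      exact absurd ⟨f, c, hF⟩ h

/-- Two pairs with the star property share an end point unless three facets lie in pairwise
distinct planes. -/
theorem M4_no_disjoint {K : Set E3} (hK : Body K)
    (hno3 : ∀ (f1 f2 f3 : E3 →L[ℝ] ℝ) (c1 c2 c3 : ℝ), M4_Facet K f1 c1 → M4_Facet K f2 c2 →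
      M4_Facet K f3 c3 → {y : E3 | f1 y = c1} = {y : E3 | f2 y = c2} ∨
        {y : E3 | f1 y = c1} = {y : E3 | f3 y = c3} ∨
        {y : E3 | f2 y = c2} = {y : E3 | f3 y = c3})
    {p1 q1 p2 q2 : E3} (s1 : M4_Star K p1 q1) (s2 : M4_Star K p2 q2)
    (hd : p1 ≠ p2 ∧ p1 ≠ q2 ∧ q1 ≠ p2 ∧ q1 ≠ q2) : False := by
  obtain ⟨f1, f2, c1, c2, hint, hcovF⟩ := M4_two_cover hno3
  apply M4_lemma_Z hK f1 f2 c1 c2 hint ![p1, p1, q1, q1] ![p2, q2, p2, q2]
  intro x hx
  rcases s1 x hx with h1 | h1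
  · have hx' : midpoint ℝ p1 x ∈ frontier K := h1 (midpoint_mem_segment p1 x)
    rcases s2 _ hx' with h2 | h2
    · rcases M4_front_cases hK hd.1 h1 h2 with ⟨f, c, hF, hfx⟩ | ⟨t, ht⟩
      · rcases hcovF f c hF x hfx with h | h
        · exact Or.inl h
        · exact Or.inr (Or.inl h)
      · exact Or.inr (Or.inr ⟨0, t, ht⟩)
    · rcases M4_front_cases hK hd.2.1 h1 h2 with ⟨f, c, hF, hfx⟩ | ⟨t, ht⟩
      · rcases hcovF f c hF x hfx with h | h
        · exact Or.inl h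
        · exact Or.inr (Or.inl h)
      · exact Or.inr (Or.inr ⟨1, t, ht⟩)
  · have hx' : midpoint ℝ q1 x ∈ frontier K := h1 (midpoint_mem_segment q1 x)
    rcases s2 _ hx' with h2 | h2
    · rcases M4_front_cases hK hd.2.2.1 h1 h2 with ⟨f, c, hF, hfx⟩ | ⟨t, ht⟩
      · rcases hcovF f c hF x hfx with h | h
        · exact Or.inl h
        · exact Or.inr (Or.inl h)
      · exact Or.inr (Or.inr ⟨2, t, ht⟩)
    · rcases M4_front_cases hK hd.2.2.2 h1 h2 with ⟨f, c, hF, hfx⟩ | ⟨t, ht⟩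
      · rcases hcovF f c hF x hfx with h | h
        · exact Or.inl h
        · exact Or.inr (Or.inl h)
      · exact Or.inr (Or.inr ⟨3, t, ht⟩)

/-- The hitting set for any family of pairs with the star property. -/
theorem M4_hitting_of_star {K : Set E3} (hK : Body K) (E : E3 → E3 → Prop)
    (hE : ∀ p q, E p q → M4_Star K p q ∧ p ∈ K ∧ q ∈ K) :
    ∃ α β : Fin 3 → E3, (∀ j, α j ∈ K ∧ β j ∈ K) ∧
      ∀ p q, E p q → (p ∈ ⋃ j, segment ℝ (α j) (β j)) ∨ (q ∈ ⋃ j, segment ℝ (α j) (β j)) := by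
  by_cases h3 : ∃ (f1 f2 f3 : E3 →L[ℝ] ℝ) (c1 c2 c3 : ℝ), M4_Facet K f1 c1 ∧ M4_Facet K f2 c2 ∧
      M4_Facet K f3 c3 ∧ {y : E3 | f1 y = c1} ≠ {y : E3 | f2 y = c2} ∧
      {y : E3 | f1 y = c1} ≠ {y : E3 | f3 y = c3} ∧ {y : E3 | f2 y = c2} ≠ {y : E3 | f3 y = c3}
  · obtain ⟨f1, f2, f3, c1, c2, c3, h1, h2, h3', h12, h13, h23⟩ := h3
    exact M4_case_three hK E hE h1 h2 h3' h12 h13 h23
  · have hno3 : ∀ (f1 f2 f3 : E3 →L[ℝ] ℝ) (c1 c2 c3 : ℝ), M4_Facet K f1 c1 → M4_Facet K f2 c2 →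
        M4_Facet K f3 c3 → {y : E3 | f1 y = c1} = {y : E3 | f2 y = c2} ∨
          {y : E3 | f1 y = c1} = {y : E3 | f3 y = c3} ∨
          {y : E3 | f2 y = c2} = {y : E3 | f3 y = c3} := by
      intro f1 f2 f3 c1 c2 c3 a1 a2 a3
      by_contra hcon
      push Not at hcon
      exact h3 ⟨f1, f2, f3, c1, c2, c3, a1, a2, a3, hcon.1, hcon.2.1, hcon.2.2⟩
    obtain ⟨x0, hx0⟩ : K.Nonempty := hK.int.mono interior_subset
    by_cases hex : ∃ p1 q1, E p1 q1
    · obtain ⟨p1, q1, hE1⟩ := hex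
      obtain ⟨st1, hp1, hq1⟩ := hE p1 q1 hE1
      refine ⟨![p1, q1, p1], ![p1, q1, p1], ?_, ?_⟩
      · intro j
        fin_cases j
        · exact ⟨hp1, hp1⟩
        · exact ⟨hq1, hq1⟩
        · exact ⟨hp1, hp1⟩
      · intro p q hpq
        have m0 : p1 ∈ ⋃ j, segment ℝ ((![p1, q1, p1] : Fin 3 → E3) j)
            ((![p1, q1, p1] : Fin 3 → E3) j) := mem_iUnion.2 ⟨0, left_mem_segment ℝ p1 p1⟩
        have m1 : q1 ∈ ⋃ j, segment ℝ ((![p1, q1, p1] : Fin 3 → E3) j)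
            ((![p1, q1, p1] : Fin 3 → E3) j) := mem_iUnion.2 ⟨1, left_mem_segment ℝ q1 q1⟩
        by_contra hcon
        push Not at hcon
        refine M4_no_disjoint hK hno3 st1 (hE p q hpq).1 ⟨?_, ?_, ?_, ?_⟩
        · rintro rfl
          exact hcon.1 m0
        · rintro rfl
          exact hcon.2 m0
        · rintro rfl
          exact hcon.1 m1
        · rintro rfl
          exact hcon.2 m1
    · exact ⟨fun _ => x0, fun _ => x0, fun _ => ⟨hx0, hx0⟩,
        fun p q hpq => absurd ⟨p, q, hpq⟩ hex⟩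

/-- M4 with the equality case of M3 as a hypothesis. -/
theorem M4_exists_hitting_of {K : Set E3} (hK : Body K)
    (hM3b : ∀ p ∈ K, ∀ q ∈ K, p ≠ q → Ahat K (q - p) = 3 * (volume K).toReal →
      ∀ x ∈ frontier K, segment ℝ p x ⊆ frontier K ∨ segment ℝ q x ⊆ frontier K) :
    ∃ α β : Fin 3 → E3, (∀ j, α j ∈ K ∧ β j ∈ K) ∧
      ∀ p ∈ K, ∀ q ∈ K, p ≠ q → Ahat K (q - p) = 3 * (volume K).toReal →
        (p ∈ ⋃ j, segment ℝ (α j) (β j)) ∨ (q ∈ ⋃ j, segment ℝ (α j) (β j)) := by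
  obtain ⟨α, β, hab, h⟩ := M4_hitting_of_star hK
    (fun p q => p ∈ K ∧ q ∈ K ∧ p ≠ q ∧ Ahat K (q - p) = 3 * (volume K).toReal)
    (fun p q hpq => ⟨hM3b p hpq.1 q hpq.2.1 hpq.2.2.1 hpq.2.2.2, hpq.1, hpq.2.1⟩)
  exact ⟨α, β, hab, fun p hp q hq hne heff => h p q ⟨hp, hq, hne, heff⟩⟩

end Vale.Agent.Lib.P243.R3
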